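import Vale.Agent.P095.All.Coin.Moments.Pattern

/-!
# P095 coin: the pairings of the ends of one, two and four blocks
-/

namespace Vale.Agent.P095.All.Coin.BankData

open Finset

noncomputable section

/-- The pairing of a single cycle. -/
def ring4 : Fin 4 × Bool → Fin 4 × Bool := chain (fun i => i + 1) (fun i => i - 1)

/-- The pairing of two cycles of length two. -/
def pairs4 : Fin 4 × Bool → Fin 4 × Bool := chain ![1, 0, 3, 2] ![1, 0, 3, 2]

theorem not_isPairing_one (π : Fin 1 × Bool → Fin 1 × Bool) : ¬ IsPairing π := fun h => by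
  refine h.2.2 0 ?_
  rcases e : π (0, false) with ⟨i, s⟩
  obtain rfl := Subsingleton.elim i 0
  cases s
  · exact absurd e (h.1 _)
  · rfl

theorem block_ne {m : ℕ} {π : Fin m × Bool → Fin m × Bool} (h : IsPairing π) (u : Fin m × Bool) :
    (π u).1 ≠ u.1 := by
  obtain ⟨hf, hinv, hs⟩ := h
  intro e
  obtain ⟨i, s⟩ := u
  rcases eπ : π (i, s) with ⟨j, t⟩
  rw [eπ] at e
  obtain rfl : j = i := e
  cases s <;> cases t
  · exact hf _ eπ
  · exact hs _ eπ
  · exact hs j (by rw [← eπ, hinv])
  · exact hf _ eπ

theorem exists_two {π : Fin 2 × Bool → Fin 2 × Bool} (h : IsPairing π) :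
    π = chain (fun i => i + 1) (fun i => i + 1) ∨ π = fun u => (u.1 + 1, u.2) := by
  have hb : ∀ u, (π u).1 = u.1 + 1 := fun u => by
    have := block_ne h u
    revert this
    generalize (π u).1 = a
    generalize u.1 = c
    revert a c
    decide
  have key : ∀ u, π u = (u.1 + 1, (π u).2) := fun u => Prod.ext (hb u) rfl
  have hinj : ∀ u v, π u = π v → u = v := fun u v e => by rw [← h.2.1 u, e, h.2.1]
  have e0 := key (0, false)
  have e1 := key (0, true)
  have hd : (π (0, false)).2 ≠ (π (0, true)).2 := fun e =>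
    Bool.false_ne_true (congrArg Prod.snd (hinj _ _ (e0.trans (by rw [e1, e]))))
  have f0 : π (1, (π (0, false)).2) = (0, false) := by
    have := h.2.1 (0, false)
    rwa [e0] at this
  have f1 : π (1, (π (0, true)).2) = (0, true) := by
    have := h.2.1 (0, true)
    rwa [e1] at this
  generalize (π (0, false)).2 = s, (π (0, true)).2 = t at *
  cases s <;> cases t <;> simp at hd
  · right
    funext ⟨i, z⟩
    fin_cases i <;> cases z <;> first | exact e0 | exact e1 | exact f0 | exact f1
  · left
    funext ⟨i, z⟩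
    fin_cases i <;> cases z <;> first | exact e0 | exact e1 | exact f0 | exact f1

theorem exists_conj_four {π : Fin 4 × Bool → Fin 4 × Bool} (h : IsPairing π) :
    ∃ (σ : Equiv.Perm (Fin 4)) (f : Fin 4 → Bool),
      (∀ u, π (act σ f u) = act σ f (ring4 u)) ∨ ∀ u, π (act σ f u) = act σ f (pairs4 u) := by
  have hb := block_ne h
  obtain ⟨-, hinv, -⟩ := h
  have hinj : ∀ u v, π u = π v → u = v := fun u v e => by rw [← hinv u, e, hinv]
  have inv' : ∀ {u v}, π u = v → π v = u := fun {u v} e => by rw [← e, hinv]
  obtain ⟨b₁, s₁, p₁⟩ : ∃ b s, π (0, true) = (b, s) := ⟨_, _, rfl⟩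
  obtain ⟨b₂, s₂, p₂⟩ : ∃ b s, π (b₁, !s₁) = (b, s) := ⟨_, _, rfl⟩
  have n1 : b₁ ≠ 0 := by simpa [p₁] using hb (0, true)
  have n2 : b₂ ≠ b₁ := by simpa [p₂] using hb (b₁, !s₁)
  by_cases c : b₂ = 0
  · -- two cycles of length two
    subst c
    have h20 : s₂ = false := by
      cases s₂
      · rfl
      · have := (inv' p₂).symm.trans p₁
        simp at this
    subst h20
    obtain ⟨b, hb0, hb1⟩ : ∃ b : Fin 4, b ≠ 0 ∧ b ≠ b₁ := by
      revert n1; generalize b₁ = a; revert a; decide
    obtain ⟨b₃, s₃, p₃⟩ : ∃ c s, π (b, true) = (c, s) := ⟨_, _, rfl⟩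
    have n3 : b₃ ≠ b := by simpa [p₃] using hb (b, true)
    have n30 : b₃ ≠ 0 := by
      rintro rfl
      cases s₃
      · have := (inv' p₃).symm.trans (inv' p₂); simp [hb1] at this
      · have := (inv' p₃).symm.trans p₁; simp [hb1] at this
    have n31 : b₃ ≠ b₁ := by
      rintro rfl
      by_cases e : s₃ = s₁
      · subst e
        have := (inv' p₃).symm.trans (inv' p₁); simp [hb0] at this
      · have e' : s₃ = !s₁ := by cases s₁ <;> cases s₃ <;> first | rfl | exact absurd rfl e
        subst e'
        have := (inv' p₃).symm.trans p₂; simp [hb0] at this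
    obtain ⟨b₄, s₄, p₄⟩ : ∃ c s, π (b₃, !s₃) = (c, s) := ⟨_, _, rfl⟩
    have n4 : b₄ ≠ b₃ := by simpa [p₄] using hb (b₃, !s₃)
    have n40 : b₄ ≠ 0 := by
      rintro rfl
      cases s₄
      · have := (inv' p₄).symm.trans (inv' p₂); simp [n31] at this
      · have := (inv' p₄).symm.trans p₁; simp [n31] at this
    have n41 : b₄ ≠ b₁ := by
      rintro rfl
      by_cases e : s₄ = s₁
      · subst e
        have := (inv' p₄).symm.trans (inv' p₁); simp [n30] at this
      · have e' : s₄ = !s₁ := by cases s₁ <;> cases s₄ <;> first | rfl | exact absurd rfl e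
        subst e'
        have := (inv' p₄).symm.trans p₂; simp [n30] at this
    have e4 : b₄ = b := by
      revert n1 hb0 hb1 n3 n30 n31 n4 n40 n41
      generalize b₁ = x, b = y, b₃ = z, b₄ = w
      revert x y z w
      decide
    subst e4
    have h4 : s₄ = false := by
      cases s₄
      · rfl
      · have := (inv' p₄).symm.trans p₃; simp at this
    subst h4
    have hbij : Function.Bijective (![0, b₁, b₄, b₃] : Fin 4 → Fin 4) := by
      refine Finite.injective_iff_bijective.1 ?_
      revert n1 hb0 hb1 n3 n30 n31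
      generalize b₁ = x, b₄ = y, b₃ = z
      unfold Function.Injective
      revert x y z
      decide
    refine ⟨Equiv.ofBijective _ hbij, ![false, s₁, false, s₃], Or.inr ?_⟩
    have q₁ := inv' p₁
    have q₂ := inv' p₂
    have q₃ := inv' p₃
    have q₄ := inv' p₄
    rintro ⟨i, z⟩
    fin_cases i <;> cases z <;> simp [act, pairs4, chain] <;> assumption
  · -- one cycle
    obtain ⟨b₃, s₃, p₃⟩ : ∃ c s, π (b₂, !s₂) = (c, s) := ⟨_, _, rfl⟩
    have n3 : b₃ ≠ b₂ := by simpa [p₃] using hb (b₂, !s₂)
    have n31 : b₃ ≠ b₁ := by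
      rintro rfl
      by_cases e : s₃ = s₁
      · subst e
        have := (inv' p₃).symm.trans (inv' p₁); simp [c] at this
      · have e' : s₃ = !s₁ := by cases s₁ <;> cases s₃ <;> first | rfl | exact absurd rfl e
        subst e'
        have := (inv' p₃).symm.trans p₂; simp at this
    have n30 : b₃ ≠ 0 := by
      rintro rfl
      obtain ⟨b, hb0, hb1, hb2⟩ : ∃ b : Fin 4, b ≠ 0 ∧ b ≠ b₁ ∧ b ≠ b₂ := by
        revert n1 n2 c; generalize b₁ = x, b₂ = y; revert x y; decide
      have h3 : s₃ = false := by
        cases s₃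
        · rfl
        · have := (inv' p₃).symm.trans p₁; simp [n2] at this
      subst h3
      obtain ⟨d, t, p⟩ : ∃ d t, π (b, true) = (d, t) := ⟨_, _, rfl⟩
      have nd : d ≠ b := by simpa [p] using hb (b, true)
      have hd : d = 0 ∨ d = b₁ ∨ d = b₂ := by
        clear hb hinj inv'
        omega
      rcases hd with rfl | rfl | rfl
      · cases t
        · have := (inv' p).symm.trans (inv' p₃); simp [hb2] at this
        · have := (inv' p).symm.trans p₁; simp [hb1] at this
      · by_cases e : t = s₁
        · subst e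
          have := (inv' p).symm.trans (inv' p₁); simp [hb0] at this
        · have e' : t = !s₁ := by cases s₁ <;> cases t <;> first | rfl | exact absurd rfl e
          subst e'
          have := (inv' p).symm.trans p₂; simp [hb2] at this
      · by_cases e : t = s₂
        · subst e
          have := (inv' p).symm.trans (inv' p₂); simp [hb1] at this
        · have e' : t = !s₂ := by cases s₂ <;> cases t <;> first | rfl | exact absurd rfl e
          subst e'
          have := (inv' p).symm.trans p₃; simp [hb0] at this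
    obtain ⟨b₄, s₄, p₄⟩ : ∃ c s, π (b₃, !s₃) = (c, s) := ⟨_, _, rfl⟩
    have n4 : b₄ ≠ b₃ := by simpa [p₄] using hb (b₃, !s₃)
    have n42 : b₄ ≠ b₂ := by
      rintro rfl
      by_cases e : s₄ = s₂
      · subst e
        have := (inv' p₄).symm.trans (inv' p₂); simp [n31] at this
      · have e' : s₄ = !s₂ := by cases s₂ <;> cases s₄ <;> first | rfl | exact absurd rfl e
        subst e'
        have := (inv' p₄).symm.trans p₃; simp at this
    have n41 : b₄ ≠ b₁ := by
      rintro rfl
      by_cases e : s₄ = s₁
      · subst e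
        have := (inv' p₄).symm.trans (inv' p₁); simp [n30] at this
      · have e' : s₄ = !s₁ := by cases s₁ <;> cases s₄ <;> first | rfl | exact absurd rfl e
        subst e'
        have := (inv' p₄).symm.trans p₂; simp [n3] at this
    have e4 : b₄ = 0 := by
      revert n1 n2 c n3 n30 n31 n4 n41 n42
      generalize b₁ = x, b₂ = y, b₃ = z, b₄ = w
      revert x y z w
      decide
    subst e4
    have h4 : s₄ = false := by
      cases s₄
      · rfl
      · have := (inv' p₄).symm.trans p₁; simp [n31] at this
    subst h4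
    have hbij : Function.Bijective (![0, b₁, b₂, b₃] : Fin 4 → Fin 4) := by
      refine Finite.injective_iff_bijective.1 ?_
      revert n1 n2 c n3 n30 n31
      generalize b₁ = x, b₂ = y, b₃ = z
      unfold Function.Injective
      revert x y z
      decide
    refine ⟨Equiv.ofBijective _ hbij, ![false, s₁, s₂, s₃], Or.inl ?_⟩
    have q₁ := inv' p₁
    have q₂ := inv' p₂
    have q₃ := inv' p₃
    have q₄ := inv' p₄
    rintro ⟨i, z⟩
    fin_cases i <;> cases z <;> simp [act, ring4, chain] <;> assumption

end

end Vale.Agent.P095.All.Coin.BankData
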