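import Vale.Agent.P095.All.Coin.Moments.Expand

/-!
# P095 coin: only the tuples in which every bank occurs exactly twice matter
-/

namespace Vale.Agent.P095.All.Coin.BankData

open Vale.Agent.P101.KR Vale.Agent.P095.Amen Finset

noncomputable section

variable {A B E : Type} [CStarAlgebra A] [CStarAlgebra B] {R D m : ℕ}

/-- Every bank occurs twice or not at all. -/
def Exact (y : Fin m → Item R E D) : Prop := ∀ r, cnt r (words y) = 0 ∨ cnt r (words y) = 2

theorem Exact.atMostTwice {y : Fin m → Item R E D} (h : Exact y) : AtMostTwice (words y) :=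
  fun r => by rcases h r with h | h <;> omega

/-- The labels of a tuple. -/
def labs (y : Fin m → Item R E D) : Fin m → Lab E D := fun i => (y i).1

/-- The degree of a tuple of labels. -/
def deg (l : Fin m → Lab E D) : ℕ := ∑ i, (((l i).1 : ℕ) + 1)

/-- The number of maps of all vertices into `deg - 1` values. -/
def nMaps (l : Fin m → Lab E D) : ℕ :=
  Fintype.card (∀ i, Fin (((l i).1 : ℕ) + 2) → Fin (deg l - 1))

theorem length_words (y : Fin m → Item R E D) : (words y).length = 2 * deg (labs y) := by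
  simp [words, List.length_flatMap, finRange_sum, length_word, deg, labs, mul_sum]

theorem mem_words (y : Fin m → Item R E D) (i : Fin m) (v : Fin (((y i).1.1 : ℕ) + 2)) :
    (y i).2 v ∈ (words y).map Prod.fst := by
  obtain ⟨p, hp, hv⟩ := List.mem_map.1 (mem_word (y i) v)
  exact List.mem_map.2 ⟨p, List.mem_flatMap.2 ⟨i, List.mem_finRange i, hp⟩, hv⟩

/-- Few tuples have a bank occurring three times and none occurring once. -/
theorem card_bad [Fintype E] (hR : 0 < R) (l : Fin m → Lab E D) (S : Finset (Fin m → Item R E D))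
    (hS : ∀ y ∈ S, labs y = l ∧ ¬ Exact y ∧ ∀ r, cnt r (words y) ≠ 1) :
    S.card ≤ nMaps l * R ^ (deg l - 1) ∧ (S.Nonempty → 1 ≤ deg l) := by
  classical
  have key : ∀ y ∈ S, 2 * ((words y).map Prod.fst).toFinset.card + 1 ≤ 2 * deg l := by
    intro y hy
    obtain ⟨hl, hne, h1⟩ := hS y hy
    set V := ((words y).map Prod.fst).toFinset
    have hlen : ∑ r ∈ V, cnt r (words y) = 2 * deg l := by
      simp only [cnt]
      rw [List.sum_toFinset_count_eq_length, List.length_map, length_words, hl]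
    obtain ⟨r, hr⟩ := not_forall.1 hne
    rw [not_or] at hr
    have hrV : r ∈ V := List.mem_toFinset.2 (List.count_pos_iff.1 (Nat.pos_of_ne_zero hr.1))
    have h2 : ∀ s ∈ V, (2 + if s = r then 1 else 0) ≤ cnt s (words y) := fun s hs => by
      have h0 : 0 < cnt s (words y) := List.count_pos_iff.2 (List.mem_toFinset.1 hs)
      have := h1 s
      split_ifs with h
      · subst h
        have := hr.2
        omega
      · omega
    have := sum_le_sum h2
    rw [sum_add_distrib, sum_const, smul_eq_mul, sum_ite_eq' V r, if_pos hrV, hlen] at this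
    omega
  refine ⟨?_, fun ⟨y, hy⟩ => by have := key y hy; omega⟩
  let F : (∀ i, Fin (((l i).1 : ℕ) + 2) → Fin (deg l - 1)) × (Fin (deg l - 1) → Fin R) →
      (Fin m → Item R E D) := fun p i => ⟨l i, p.2 ∘ p.1 i⟩
  have hsub : S ⊆ univ.image F := by
    intro y hy
    have hc := key y hy
    obtain ⟨rfl, -, -⟩ := hS y hy
    set V := ((words y).map Prod.fst).toFinset
    obtain ⟨em⟩ : Nonempty (V ↪ Fin (deg (labs y) - 1)) :=
      Function.Embedding.nonempty_of_card_le (by simp; omega)
    refine mem_image.2 ⟨(fun i v => em ⟨(y i).2 v, List.mem_toFinset.2 (mem_words y i v)⟩,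
      Function.extend em Subtype.val fun _ => ⟨0, hR⟩), mem_univ _, funext fun i => ?_⟩
    show (⟨labs y i, _⟩ : Item R E D) = ⟨(y i).1, (y i).2⟩
    exact Sigma.ext rfl (heq_of_eq (funext fun v =>
      em.injective.extend_apply Subtype.val (fun _ => (⟨0, hR⟩ : Fin R)) ⟨(y i).2 v, List.mem_toFinset.2 (mem_words y i v)⟩))
  refine (card_le_card hsub).trans (card_image_le.trans_eq ?_)
  rw [card_univ, Fintype.card_prod, Fintype.card_fun]
  simp [nMaps]

variable [Fintype E]

/-- The error constant. -/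
def errC (cf : Lab E D → ℝ) (m : ℕ) : ℝ :=
  ∑ l : Fin m → Lab E D, 2 * |∏ i, cf (l i)| * (nMaps l : ℝ)

theorem errC_nonneg (cf : Lab E D → ℝ) (m : ℕ) : 0 ≤ errC cf m :=
  sum_nonneg fun _ _ => by positivity

variable (b : BankData A B E R) {τ : A →ₗ[ℂ] ℂ}

omit [Fintype E] in
theorem prod_wt (cf : Lab E D → ℝ) (y : Fin m → Item R E D) :
    ∏ i, wt cf (y i) = (∏ i, cf (labs y i)) * ((R : ℝ)⁻¹) ^ deg (labs y) := by
  simp only [wt, prod_mul_distrib, prod_pow_eq_pow_sum, deg, labs]

open Classical in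
/-- Restricting a sum to exact tuples costs `O(1/R)`. -/
theorem abs_sum_sub_exact (hR : 0 < R) (hτ : PosTr τ) (h1 : (τ 1).re ≤ 1) (cf : Lab E D → ℝ)
    (p : (Fin m → Item R E D) → Prop) [DecidablePred p] :
    |∑ y ∈ univ.filter p, b.val τ cf y -
      ∑ y ∈ univ.filter (fun y => Exact y ∧ p y), b.val τ cf y| ≤ errC cf m / R := by
  set S := univ.filter fun y : Fin m → Item R E D => ¬ Exact y ∧ ∀ r, cnt r (words y) ≠ 1
  have hsplit : ∑ y ∈ univ.filter p, b.val τ cf y -
      ∑ y ∈ univ.filter (fun y => Exact y ∧ p y), b.val τ cf y =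
      ∑ y ∈ S.filter p, b.val τ cf y := by
    rw [← sum_filter_add_sum_filter_not (univ.filter p) Exact, filter_filter, filter_filter]
    simp only [and_comm (a := Exact _)]
    rw [add_sub_cancel_left]
    refine (sum_subset (fun y hy => ?_) fun y hy hy' => ?_).symm
    · simp only [S, mem_filter] at hy ⊢
      exact ⟨hy.1.1, hy.2, hy.1.2.1⟩
    · simp only [S, mem_filter, mem_univ, true_and] at hy hy'
      have : ∃ r, cnt r (words y) = 1 := by
        by_contra h
        exact hy' ⟨⟨hy.2, fun r hr => h ⟨r, hr⟩⟩, hy.1⟩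
      obtain ⟨r, hr⟩ := this
      rw [val, b.ev_eq_zero hτ hr, mul_zero]
  rw [hsplit]
  refine (abs_sum_le_sum_abs _ _).trans ?_
  refine (sum_le_sum_of_subset_of_nonneg (filter_subset _ _) fun _ _ _ => abs_nonneg _).trans ?_
  rw [← sum_fiberwise S labs, errC, sum_div]
  refine sum_le_sum fun l _ => ?_
  obtain ⟨hcard, hdeg⟩ := card_bad hR l (S.filter fun y => labs y = l) fun y hy => by
    simp only [S, mem_filter, mem_univ, true_and] at hy
    exact ⟨hy.2, hy.1⟩
  have hb : ∀ y ∈ S.filter (fun y => labs y = l),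
      |b.val τ cf y| ≤ |∏ i, cf (l i)| * ((R : ℝ)⁻¹) ^ deg l * 2 := fun y hy => by
    rw [val, abs_mul, prod_wt, (mem_filter.1 hy).2, abs_mul,
      abs_of_nonneg (by positivity : (0 : ℝ) ≤ ((R : ℝ)⁻¹) ^ deg l)]
    exact mul_le_mul_of_nonneg_left (b.abs_ev_le hτ h1 _) (by positivity)
  refine (sum_le_card_nsmul _ _ _ hb).trans ?_
  rcases (S.filter fun y => labs y = l).eq_empty_or_nonempty with h | h
  · rw [h, card_empty, zero_smul]; positivity
  · obtain ⟨K, hK⟩ : ∃ K, deg l = K + 1 := ⟨deg l - 1, by have := hdeg h; omega⟩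
    rw [hK, Nat.add_sub_cancel] at hcard
    rw [nsmul_eq_mul, hK]
    calc ((S.filter fun y => labs y = l).card : ℝ) *
          (|∏ i, cf (l i)| * ((R : ℝ)⁻¹) ^ (K + 1) * 2)
        ≤ ((nMaps l * R ^ K : ℕ) : ℝ) * (|∏ i, cf (l i)| * ((R : ℝ)⁻¹) ^ (K + 1) * 2) :=
          mul_le_mul_of_nonneg_right (Nat.cast_le.2 hcard) (by positivity)
      _ = 2 * |∏ i, cf (l i)| * (nMaps l : ℝ) / R := by
          have : (R : ℝ) ≠ 0 := by positivity
          push_cast
          rw [inv_pow]
          field_simp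
          ring

end

end Vale.Agent.P095.All.Coin.BankData
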