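import Vale.Agent.P095.All.Coin.Moments.Items

/-!
# P095 coin: products of covariance polynomials as sums over tuples of items
-/

namespace Vale.Agent.P095.All.Coin.BankData

open Vale.Agent.P101.KR Vale.Agent.P095.Amen Finset

noncomputable section

variable {A B E : Type} [CStarAlgebra A] [CStarAlgebra B] {R D m : ℕ}

/-- The letters of a tuple. -/
def words (y : Fin m → Item R E D) : List (Fin R × E) :=
  (List.finRange m).flatMap fun i => word (y i)

/-- The ends of a tuple. -/
def ends (y : Fin m → Item R E D) (u : Fin m × Bool) : Fin R := endAt (y u.1) u.2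

variable (b : BankData A B E R)

/-- The contribution of a tuple. -/
def val (τ : A →ₗ[ℂ] ℂ) (cf : Lab E D → ℝ) (y : Fin m → Item R E D) : ℝ :=
  (∏ i, wt cf (y i)) * b.ev τ (words y)

theorem prod_sum_ite {M ι : Type} [Ring M] [Fintype ι] {n : ℕ} (p : Fin n → ι → Prop)
    [∀ i, DecidablePred (p i)] (f : Fin n → ι → M) :
    (List.ofFn fun i => ∑ x, if p i x then f i x else 0).prod =
      ∑ y : Fin n → ι, if ∀ i, p i (y i) then (List.ofFn fun i => f i (y i)).prod else 0 := by
  induction n with
  | zero => simp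
  | succ n ih =>
    rw [List.ofFn_succ, List.prod_cons, ih (fun i => p i.succ) (fun i => f i.succ), sum_mul_sum,
      sum_fin_cons]
    refine sum_congr rfl fun a _ => sum_congr rfl fun y _ => ?_
    simp only [Fin.forall_fin_succ, Fin.cons_zero, Fin.cons_succ, List.ofFn_succ, List.prod_cons]
    split_ifs <;> simp_all

theorem prod_smul_wp {n : ℕ} (c : Fin n → ℝ) (l : Fin n → List (Fin R × E)) :
    (List.ofFn fun i => c i • b.wp (l i)).prod = (∏ i, c i) • b.wp ((List.finRange n).flatMap l) := by
  induction n with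
  | zero => simp [wp]
  | succ n ih =>
    rw [List.ofFn_succ, List.prod_cons, ih (fun i => c i.succ) (fun i => l i.succ),
      Fin.prod_univ_succ, List.finRange_succ, List.flatMap_cons, List.flatMap_map, wp_append,
      smul_mul_smul_comm]

variable [Fintype E] (τ : A →ₗ[ℂ] ℂ) (cf : Lab E D → ℝ)

/-- The moments of the coin. -/
theorem re_xgen_pow (m : ℕ) :
    (τ (b.xgen cf ^ m)).re = ∑ y ∈ univ.filter (fun y : Fin m → Item R E D =>
      ∀ i, ends y (i, false) ≠ ends y (i, true)), b.val τ cf y := by
  have e : b.xgen cf ^ m = (List.ofFn fun _ : Fin m => b.xgen cf).prod := by simp [List.ofFn_const]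
  rw [e]
  unfold xgen
  rw [prod_sum_ite (fun _ x => endAt x false ≠ endAt x true)
    (fun _ x => wt cf x • b.wp (word x)), map_sum, Complex.re_sum, sum_filter]
  refine sum_congr rfl fun y _ => ?_
  by_cases h : ∀ i, ends y (i, false) ≠ ends y (i, true)
  · rw [if_pos h, if_pos (show ∀ i, endAt (y i) false ≠ endAt (y i) true from h), prod_smul_wp,
      smul_re]
    rfl
  · rw [if_neg h, if_neg (show ¬∀ i, endAt (y i) false ≠ endAt (y i) true from h)]; simp

/-- A product of entries along a permutation of the factors. -/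
def cyc (T : Mat A R) (nxt : Fin m → Fin m) : A :=
  ∑ i : Fin m → Fin R, (List.ofFn fun u => Mat.ent T (i u) (i (nxt u))).prod

/-- The moments of the matrix. -/
theorem re_cyc (nxt : Fin m → Fin m) :
    (τ (cyc (b.mgen cf) nxt)).re = ∑ y ∈ univ.filter (fun y : Fin m → Item R E D =>
      ∀ i, ends y (i, true) = ends y (nxt i, false)), b.val τ cf y := by
  simp only [cyc, mgen, Mat.ent_of, map_sum, Complex.re_sum]
  simp only [prod_sum_ite, map_sum, Complex.re_sum]
  rw [sum_comm, sum_filter]
  refine sum_congr rfl fun y _ => ?_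
  rw [sum_eq_single_of_mem (fun u => ends y (u, false)) (mem_univ _) fun i _ hi => ?_]
  · by_cases h : ∀ i, ends y (i, true) = ends y (nxt i, false)
    · rw [if_pos h, if_pos (fun i => ⟨rfl, h i⟩), prod_smul_wp, smul_re]; rfl
    · rw [if_neg h, if_neg (fun h' => h fun i => (h' i).2)]; simp
  · rw [if_neg fun h => hi (funext fun u => (h u).1.symm)]
    simp

theorem cyc_two (T : Mat A R) : cyc T (fun i : Fin 2 => i + 1) = Mat.tr (T * T) := by
  simp [cyc, sum_fin_cons, Mat.tr, Mat.ent_mul]

theorem cyc_four (T : Mat A R) : cyc T (fun i : Fin 4 => i + 1) = Mat.tr (T ^ 4) := by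
  rw [show T ^ 4 = T * (T * (T * T)) by simp only [pow_succ, pow_zero, one_mul, mul_assoc]]
  simp [cyc, sum_fin_cons, Mat.tr, Mat.ent_mul, mul_sum]
  rfl

theorem cyc_pairs (T : Mat A R) :
    cyc T (![1, 0, 3, 2] : Fin 4 → Fin 4) = Mat.tr (T ^ 2) * Mat.tr (T ^ 2) := by
  rw [sq T]
  simp only [Mat.tr, Mat.ent_mul, sum_mul_sum]
  simp [cyc, sum_fin_cons, mul_assoc]
  refine sum_congr rfl fun a _ => ?_
  rw [sum_comm (s := (univ : Finset (Fin R)))]
  rfl

end

end Vale.Agent.P095.All.Coin.BankData
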