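import Vale.Agent.P095.All.Coin.Moments.Words

/-!
# P095 coin: the monomials of the covariance polynomial

An item is a degree, its labels and its banks; its word lists the letters in order.
-/

namespace Vale.Agent.P095.All.Coin.BankData

open Vale.Agent.P101.KR Vale.Agent.P095.Amen Finset

noncomputable section

/-- A degree and the labels. -/
abbrev Lab (E : Type) (D : ℕ) : Type := Σ k : Fin D, (Fin ((k : ℕ) + 1) → E)

/-- A degree, the labels and the banks. -/
abbrev Item (R : ℕ) (E : Type) (D : ℕ) : Type :=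
  Σ l : Lab E D, (Fin ((l.1 : ℕ) + 2) → Fin R)

variable {A B E : Type} [CStarAlgebra A] [CStarAlgebra B] {R D : ℕ}

/-- The two ends, `false` the first. -/
def endAt (x : Item R E D) (s : Bool) : Fin R :=
  if s then x.2 (Fin.last _) else x.2 0

/-- The letters of a monomial. -/
def seqWord {k : ℕ} (g : Fin (k + 1) → E) (c : Fin (k + 2) → Fin R) : List (Fin R × E) :=
  (List.finRange (k + 1)).flatMap fun t => [(c t.castSucc, g t), (c t.succ, g t)]

/-- The letters of an item. -/
def word (x : Item R E D) : List (Fin R × E) := seqWord x.1.2 x.2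

/-- The item read backwards. -/
def rev (x : Item R E D) : Item R E D := ⟨⟨x.1.1, x.1.2 ∘ Fin.rev⟩, x.2 ∘ Fin.rev⟩

theorem rev_rev (x : Item R E D) : rev (rev x) = x := by
  obtain ⟨⟨k, g⟩, c⟩ := x
  simp [rev, Function.comp_def]

theorem endAt_rev (x : Item R E D) (s : Bool) : endAt (rev x) s = endAt x (!s) := by
  obtain ⟨⟨k, g⟩, c⟩ := x
  cases s
  · exact congrArg c (Fin.rev_zero _)
  · exact congrArg c (Fin.rev_last _)

theorem word_rev (x : Item R E D) : (word (rev x)).Perm (word x) := by
  obtain ⟨⟨k, g⟩, c⟩ := x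
  simp only [word, rev, seqWord, Function.comp_def]
  have h1 : ((List.finRange ((k : ℕ) + 1)).map Fin.rev).Perm (List.finRange ((k : ℕ) + 1)) :=
    (List.perm_ext_iff_of_nodup ((List.nodup_finRange _).map Fin.rev_injective)
      (List.nodup_finRange _)).2 fun a => by
        simp only [List.mem_map, List.mem_finRange, true_and, iff_true]
        exact ⟨a.rev, Fin.rev_rev a⟩
  refine .trans ?_ (h1.flatMap_right _)
  rw [List.flatMap_map]
  refine List.Perm.flatMap_left _ fun t _ => ?_
  rw [Fin.rev_castSucc, Fin.rev_succ]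
  exact List.Perm.swap _ _ _

theorem length_word (x : Item R E D) : (word x).length = 2 * ((x.1.1 : ℕ) + 1) := by
  simp [word, seqWord, mul_comm]

theorem cnt_flatMap {ι : Type} (r : Fin R) (l : List ι) (f : ι → List (Fin R × E)) :
    cnt r (l.flatMap f) = (l.map fun i => cnt r (f i)).sum := by
  induction l with
  | nil => simp [cnt]
  | cons a l ih => simp [cnt_append, ih]

theorem finRange_sum {n : ℕ} (f : Fin n → ℕ) : ((List.finRange n).map f).sum = ∑ i, f i := by
  rw [← List.ofFn_eq_map, List.sum_ofFn]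

theorem cnt_word (x : Item R E D) (r : Fin R) :
    cnt r (word x) + ((if endAt x false = r then 1 else 0) + if endAt x true = r then 1 else 0) =
      2 * ∑ v, (if x.2 v = r then 1 else 0) := by
  simp only [word, seqWord, cnt_flatMap, finRange_sum, cnt_cons, endAt]
  have e0 : cnt r ([] : List (Fin R × E)) = 0 := rfl
  simp only [e0, zero_add, sum_add_distrib, if_true, Bool.false_eq_true, if_false]
  have a := Fin.sum_univ_castSucc (fun v => if x.2 v = r then 1 else 0)
  have b := Fin.sum_univ_succ (fun v => if x.2 v = r then 1 else 0)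
  linarith

theorem mem_word (x : Item R E D) (v : Fin ((x.1.1 : ℕ) + 2)) :
    x.2 v ∈ (word x).map Prod.fst := by
  simp only [word, seqWord, List.mem_map, List.mem_flatMap, List.mem_finRange, true_and]
  induction v using Fin.lastCases with
  | last => exact ⟨(x.2 (Fin.last _), x.1.2 (Fin.last _)), ⟨Fin.last _, by simp⟩, rfl⟩
  | cast v => exact ⟨(x.2 v.castSucc, x.1.2 v), ⟨v, by simp⟩, rfl⟩

variable [Fintype E] (b : BankData A B E R)

theorem ent_cov (w : E → ℝ) (i j : Fin R) :
    Mat.ent (b.cov w) i j = ∑ e, w e • (R : ℝ)⁻¹ • (b.letter i e * b.letter j e) := by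
  simp [cov]

omit [Fintype E] in
theorem seqWord_cons {k : ℕ} (e : E) (g : Fin (k + 1) → E) (x : Fin R)
    (c : Fin (k + 2) → Fin R) :
    seqWord (Fin.cons e g : Fin (k + 2) → E) (Fin.cons x c : Fin (k + 3) → Fin R) =
      [(x, e), (c 0, e)] ++ seqWord g c := by
  rw [seqWord, List.finRange_succ, List.flatMap_cons, List.flatMap_map]
  simp [seqWord]

theorem sum_fin_cons {α M : Type} [Fintype α] [AddCommMonoid M] {n : ℕ}
    (f : (Fin (n + 1) → α) → M) : ∑ g, f g = ∑ a, ∑ g, f (Fin.cons a g) := by
  rw [← (Fin.consEquiv fun _ => α).sum_comp, Fintype.sum_prod_type]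
  rfl

theorem ent_cov_pow (w : E → ℝ) (k : ℕ) (i j : Fin R) :
    Mat.ent (b.cov w ^ (k + 1)) i j = ∑ g : Fin (k + 1) → E, ∑ c : Fin (k + 2) → Fin R,
      if c 0 = i ∧ c (Fin.last _) = j then
        (((R : ℝ)⁻¹) ^ (k + 1) * ∏ t, w (g t)) • b.wp (seqWord g c) else 0 := by
  induction k generalizing i j with
  | zero =>
    rw [pow_one, ent_cov, sum_fin_cons]
    refine sum_congr rfl fun e _ => ?_
    rw [Fintype.sum_unique, sum_fin_cons]
    simp_rw [sum_fin_cons (n := 0), Fintype.sum_unique]
    rw [sum_eq_single_of_mem i (mem_univ _) (fun x _ hx => sum_eq_zero fun y _ => if_neg fun h =>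
        hx (by simpa using h.1)), sum_eq_single_of_mem j (mem_univ _) (fun y _ hy => if_neg fun h =>
        hy (by simpa using h.2))]
    simp [seqWord, wp, smul_smul, mul_comm, List.finRange_succ]
  | succ k ih =>
    rw [pow_succ', Mat.ent_mul, sum_fin_cons]
    simp_rw [sum_fin_cons (n := k + 2)]
    calc ∑ m, Mat.ent (b.cov w) i m * Mat.ent (b.cov w ^ (k + 1)) m j
        = ∑ e : E, ∑ g : Fin (k + 1) → E, ∑ c : Fin (k + 2) → Fin R, ∑ m,
            (w e • (R : ℝ)⁻¹ • (b.letter i e * b.letter m e)) *
              if c 0 = m ∧ c (Fin.last _) = j then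
                (((R : ℝ)⁻¹) ^ (k + 1) * ∏ t, w (g t)) • b.wp (seqWord g c) else 0 := by
          simp only [ent_cov, ih, sum_mul]
          simp only [mul_sum]
          rw [sum_comm]
          exact sum_congr rfl fun e _ => by rw [sum_comm]; exact sum_congr rfl fun g _ => sum_comm
      _ = _ := by
          refine sum_congr rfl fun e _ => sum_congr rfl fun g _ => ?_
          conv_rhs => rw [sum_comm]
          refine sum_congr rfl fun c _ => ?_
          rw [sum_eq_single_of_mem (c 0) (mem_univ _) (fun m _ hm => by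
              rw [if_neg fun h => hm h.1.symm, mul_zero]),
            sum_eq_single_of_mem i (mem_univ _) (fun x _ hx => if_neg fun h =>
              hx (by simpa using h.1))]
          simp only [← Fin.succ_last (k + 1), Fin.cons_succ, Fin.cons_zero, true_and]
          split_ifs with h
          · rw [seqWord_cons, wp_append, Fin.prod_univ_succ (n := k + 1)]
            simp only [Fin.cons_succ, Fin.cons_zero, smul_mul_smul_comm, smul_smul, wp,
              List.map_cons, List.map_nil, List.prod_cons, List.prod_nil, mul_one]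
            congr 1
            ring
          · rw [mul_zero]

/-- The weight of an item. -/
def wt (cf : Lab E D → ℝ) (x : Item R E D) : ℝ := cf x.1 * ((R : ℝ)⁻¹) ^ ((x.1.1 : ℕ) + 1)

/-- The coefficients of `∑ a_k P^(k+1)`. -/
def cfOf (a : Fin D → ℝ) (w : E → ℝ) (l : Lab E D) : ℝ := a l.1 * ∏ t, w (l.2 t)

/-- The matrix with given coefficients. -/
def mgen (cf : Lab E D → ℝ) : Mat A R :=
  Mat.of fun i j => ∑ x : Item R E D,
    if endAt x false = i ∧ endAt x true = j then wt cf x • b.wp (word x) else 0

/-- Its sum off the diagonal. -/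
def xgen (cf : Lab E D → ℝ) : A :=
  ∑ x : Item R E D, if endAt x false ≠ endAt x true then wt cf x • b.wp (word x) else 0

theorem polyCov_eq (a : Fin D → ℝ) (w : E → ℝ) : b.polyCov a w = b.mgen (cfOf a w) := by
  refine Mat.ext fun i j => ?_
  simp only [polyCov, mgen, Mat.ent_sum, Mat.ent_rsmul, Mat.ent_of]
  rw [Fintype.sum_sigma, Fintype.sum_sigma]
  refine sum_congr rfl fun k _ => ?_
  rw [ent_cov_pow, smul_sum]
  refine sum_congr rfl fun g _ => ?_
  rw [smul_sum]
  refine sum_congr rfl fun c _ => ?_
  simp only [endAt, wt, cfOf, word, Bool.false_eq_true, if_false, if_true]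
  split_ifs
  · rw [smul_smul]
    congr 1
    ring
  · rw [smul_zero]

theorem coin_eq (a : Fin D → ℝ) (w : E → ℝ) : b.coin a w = b.xgen (cfOf a w) := by
  simp only [coin, polyCov_eq, mgen, xgen, Mat.ent_of]
  rw [sum_comm]
  refine sum_congr rfl fun x _ => ?_
  split_ifs with h
  · rw [sum_eq_single_of_mem (endAt x false, endAt x true) (mem_filter.2 ⟨mem_univ _, h⟩)
      fun p _ hp => if_neg fun he => hp (Prod.ext he.1.symm he.2.symm), if_pos ⟨rfl, rfl⟩]
  · exact sum_eq_zero fun p hp => if_neg fun he => h (by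
      rw [he.1, he.2]; exact (mem_filter.1 hp).2)

theorem mgen_sub (cf cf' : Lab E D → ℝ) :
    b.mgen cf - b.mgen cf' = b.mgen fun l => cf l - cf' l := by
  refine Mat.ext fun i j => ?_
  simp only [mgen, Mat.ent_sub, Mat.ent_of, ← sum_sub_distrib]
  refine sum_congr rfl fun x _ => ?_
  split_ifs
  · simp only [wt, sub_mul, sub_smul]
  · rw [sub_zero]

theorem xgen_sub (cf cf' : Lab E D → ℝ) :
    b.xgen cf - b.xgen cf' = b.xgen fun l => cf l - cf' l := by
  simp only [xgen, ← sum_sub_distrib]
  refine sum_congr rfl fun x _ => ?_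
  split_ifs
  · simp only [wt, sub_mul, sub_smul]
  · rw [sub_zero]

end

end Vale.Agent.P095.All.Coin.BankData
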