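import Vale.Agent.P095.All.Coin.Moments.Count

/-!
# P095 coin: in an exact tuple the ends are shared in pairs

The sum over the exact tuples with a given pairing of ends does not change when blocks are permuted
or reversed.
-/

namespace Vale.Agent.P095.All.Coin.BankData

open Vale.Agent.P101.KR Vale.Agent.P095.Amen Finset

noncomputable section

variable {A B E : Type} [CStarAlgebra A] [CStarAlgebra B] {R D m : ℕ}

theorem cnt_words (y : Fin m → Item R E D) (r : Fin R) :
    cnt r (words y) = ∑ i, cnt r (word (y i)) := by
  simp [words, cnt_flatMap, finRange_sum]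

/-- The number of ends with value `r`. -/
theorem card_ends_eq (y : Fin m → Item R E D) (r : Fin R) :
    (univ.filter fun u => ends y u = r).card =
      ∑ i, ((if endAt (y i) false = r then 1 else 0) + if endAt (y i) true = r then 1 else 0) := by
  rw [card_filter, Fintype.sum_prod_type]
  refine sum_congr rfl fun i _ => ?_
  rw [Fintype.sum_bool, ends, ends, add_comm]

theorem endsum_le (x : Item R E D) (r : Fin R) :
    ((if endAt x false = r then 1 else 0) + if endAt x true = r then 1 else 0) ≤ cnt r (word x) := by
  have hne : (0 : Fin ((x.1.1 : ℕ) + 2)) ≠ Fin.last _ := (Fin.last_pos).ne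
  have h : ∑ v ∈ ({0, Fin.last _} : Finset (Fin ((x.1.1 : ℕ) + 2))), (if x.2 v = r then 1 else 0) ≤
      ∑ v, if x.2 v = r then 1 else 0 :=
    sum_le_sum_of_subset (subset_univ _)
  rw [sum_pair hne] at h
  have := cnt_word x r
  simp only [endAt, Bool.false_eq_true, if_false, if_true] at this ⊢
  omega

/-- The ends of an exact tuple come in pairs. -/
theorem Exact.card_ends {y : Fin m → Item R E D} (h : Exact y) (u : Fin m × Bool) :
    (univ.filter fun v => ends y v = ends y u).card = 2 := by
  set r := ends y u
  have hle : (univ.filter fun v => ends y v = r).card ≤ cnt r (words y) := by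
    rw [card_ends_eq, cnt_words]
    exact sum_le_sum fun i _ => endsum_le _ _
  have hpos : 0 < (univ.filter fun v => ends y v = r).card :=
    card_pos.2 ⟨u, mem_filter.2 ⟨mem_univ _, rfl⟩⟩
  have heven : cnt r (words y) + (univ.filter fun v => ends y v = r).card =
      2 * ∑ i, ∑ v, (if (y i).2 v = r then 1 else 0) := by
    rw [card_ends_eq, cnt_words, ← sum_add_distrib, mul_sum]
    exact sum_congr rfl fun i _ => cnt_word _ _
  rcases h r with h | h <;> omega

/-- `π` sends every end to one with the same value. -/
def Patt (π : Fin m × Bool → Fin m × Bool) (y : Fin m → Item R E D) : Prop :=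
  ∀ u, ends y (π u) = ends y u

theorem Exact.patt_unique {y : Fin m → Item R E D} (h : Exact y)
    {π : Fin m × Bool → Fin m × Bool} (hπ : Patt π y) (hf : ∀ u, π u ≠ u) {u v : Fin m × Bool}
    (hv : ends y v = ends y u) : v = u ∨ v = π u := by
  classical
  by_contra hne
  rw [not_or] at hne
  have : 3 ≤ (univ.filter fun w => ends y w = ends y u).card := by
    refine le_trans (le_of_eq ?_) (card_le_card (s := {v, u, π u}) fun w hw => ?_)
    · rw [card_insert_of_notMem (by simp [hne.1, hne.2]), card_pair (hf u).symm]
    · simp only [mem_insert, mem_singleton] at hw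
      refine mem_filter.2 ⟨mem_univ _, ?_⟩
      rcases hw with rfl | rfl | rfl
      exacts [hv, rfl, hπ u]
  rw [h.card_ends] at this
  omega

/-- A fixed point free involution of the ends pairing no block with itself. -/
def IsPairing (π : Fin m × Bool → Fin m × Bool) : Prop :=
  (∀ u, π u ≠ u) ∧ (∀ u, π (π u) = u) ∧ ∀ i, π (i, false) ≠ (i, true)

theorem exists_pairing {y : Fin m → Item R E D} (h : Exact y)
    (hoff : ∀ i, ends y (i, false) ≠ ends y (i, true)) :
    ∃ π, IsPairing π ∧ Patt π y := by
  classical
  have hp : ∀ u, ∃ v, v ≠ u ∧ ends y v = ends y u := fun u => by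
    obtain ⟨v, hv, hne⟩ := exists_mem_ne (by rw [h.card_ends u]; norm_num :
      1 < (univ.filter fun w => ends y w = ends y u).card) u
    exact ⟨v, hne, (mem_filter.1 hv).2⟩
  choose π hne hπ using hp
  refine ⟨π, ⟨hne, fun u => ?_, fun i he => hoff i (by rw [← he, hπ])⟩, hπ⟩
  rcases h.patt_unique hπ hne (u := u) (v := π (π u)) (by rw [hπ, hπ]) with e | e
  · exact e
  · exact absurd e (hne _)

/-- The pairing of a closed chain of blocks. -/
def chain (nxt prv : Fin m → Fin m) (u : Fin m × Bool) : Fin m × Bool :=
  if u.2 then (nxt u.1, false) else (prv u.1, true)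

theorem patt_chain {nxt prv : Fin m → Fin m} (hnp : ∀ i, nxt (prv i) = i)
    (y : Fin m → Item R E D) :
    Patt (chain nxt prv) y ↔ ∀ i, ends y (i, true) = ends y (nxt i, false) := by
  constructor
  · exact fun h i => (by simpa [chain] using (h (i, true)).symm)
  · rintro h ⟨i, s⟩
    cases s
    · simpa [chain, hnp] using h (prv i)
    · simpa [chain] using (h i).symm

/-- Permuting and reversing blocks, on the ends. -/
def act (σ : Equiv.Perm (Fin m)) (f : Fin m → Bool) (u : Fin m × Bool) : Fin m × Bool :=
  (σ u.1, xor u.2 (f u.1))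

theorem act_surjective (σ : Equiv.Perm (Fin m)) (f : Fin m → Bool) :
    Function.Surjective (act σ f) := fun v =>
  ⟨(σ.symm v.1, xor v.2 (f (σ.symm v.1))), by simp [act]⟩

/-- Reversing on demand. -/
def flipIf (s : Bool) (x : Item R E D) : Item R E D := if s then rev x else x

theorem flipIf_flipIf (s : Bool) (x : Item R E D) : flipIf s (flipIf s x) = x := by
  cases s <;> simp [flipIf, rev_rev]

/-- Permuting and reversing the blocks of a tuple. -/
def move (σ : Equiv.Perm (Fin m)) (f : Fin m → Bool) (y : Fin m → Item R E D) :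
    Fin m → Item R E D := fun i => flipIf (f i) (y (σ i))

theorem ends_move (σ : Equiv.Perm (Fin m)) (f : Fin m → Bool) (y : Fin m → Item R E D)
    (u : Fin m × Bool) : ends (move σ f y) u = ends y (act σ f u) := by
  obtain ⟨i, s⟩ := u
  simp only [ends, move, act, flipIf]
  cases f i <;> simp [endAt_rev]

theorem words_move (σ : Equiv.Perm (Fin m)) (f : Fin m → Bool) (y : Fin m → Item R E D) :
    (words (move σ f y)).Perm (words y) := by
  simp only [words, move]
  have h1 : ((List.finRange m).map σ).Perm (List.finRange m) :=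
    (List.perm_ext_iff_of_nodup ((List.nodup_finRange _).map σ.injective)
      (List.nodup_finRange _)).2 fun a => by
        simp only [List.mem_map, List.mem_finRange, true_and, iff_true]
        exact ⟨σ.symm a, σ.apply_symm_apply a⟩
  refine .trans ?_ (h1.flatMap_right _)
  rw [List.flatMap_map]
  refine List.Perm.flatMap_left _ fun i _ => ?_
  cases f i
  · exact .refl _
  · exact word_rev _

theorem exact_move (σ : Equiv.Perm (Fin m)) (f : Fin m → Bool) (y : Fin m → Item R E D) :
    Exact (move σ f y) ↔ Exact y := by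
  simp only [Exact, cnt_perm (words_move σ f y)]

theorem move_bijective [Fintype E] (σ : Equiv.Perm (Fin m)) (f : Fin m → Bool) :
    Function.Bijective (move (R := R) (E := E) (D := D) σ f) := by
  rw [← Finite.injective_iff_bijective]
  intro y z h
  funext i
  have := congrArg (flipIf (f (σ.symm i))) (congrFun h (σ.symm i))
  simpa [move, flipIf_flipIf] using this

/-- Reversing a monomial does not change its coefficient. -/
def RevInv (cf : Lab E D → ℝ) : Prop := ∀ x : Lab E D, cf ⟨x.1, x.2 ∘ Fin.rev⟩ = cf x

theorem wt_flipIf {cf : Lab E D → ℝ} (hcf : RevInv cf) (s : Bool) (x : Item R E D) :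
    wt cf (flipIf s x) = wt cf x := by
  cases s
  · rfl
  · simp only [flipIf, if_true, wt, rev, hcf x.1]

variable (b : BankData A B E R) {τ : A →ₗ[ℂ] ℂ}

theorem val_move (hτ : PosTr τ) {cf : Lab E D → ℝ} (hcf : RevInv cf) (σ : Equiv.Perm (Fin m))
    (f : Fin m → Bool) {y : Fin m → Item R E D} (hy : Exact y) :
    b.val τ cf (move σ f y) = b.val τ cf y := by
  rw [val, val, b.ev_perm hτ (words_move σ f y) ((exact_move σ f y).2 hy).atMostTwice]
  congr 1
  simp only [move, wt_flipIf hcf]
  exact Equiv.prod_comp σ fun i => wt cf (y i)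

variable [Fintype E] (τ) in
open Classical in
/-- The sum over the exact tuples with pairing `π`. -/
def pairSum (cf : Lab E D → ℝ) (π : Fin m × Bool → Fin m × Bool) : ℝ :=
  ∑ y ∈ univ.filter (fun y : Fin m → Item R E D => Exact y ∧ Patt π y), b.val τ cf y

theorem pairSum_conj [Fintype E] (hτ : PosTr τ) {cf : Lab E D → ℝ} (hcf : RevInv cf)
    (σ : Equiv.Perm (Fin m)) (f : Fin m → Bool) {π π' : Fin m × Bool → Fin m × Bool}
    (h : ∀ u, π (act σ f u) = act σ f (π' u)) : b.pairSum τ cf π = b.pairSum τ cf π' := by
  classical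
  unfold pairSum
  refine sum_equiv (Equiv.ofBijective (move σ f) (move_bijective σ f)) ?_ ?_ <;> intro y
  · rw [mem_filter, mem_filter, Equiv.ofBijective_apply]
    simp only [mem_univ, true_and, exact_move, Patt,
      ends_move, ← h]
    exact and_congr_right fun _ => ⟨fun hp u => hp _, fun hp v => by
      obtain ⟨u, rfl⟩ := act_surjective σ f v
      exact hp u⟩
  · intro hy
    exact (b.val_move hτ hcf σ f (mem_filter.1 hy).2.1).symm

variable [Fintype E]

open Classical in
/-- The exact tuples off the diagonal, sorted by pairing. -/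
theorem sum_off_exact (cf : Lab E D → ℝ) :
    ∑ y ∈ univ.filter (fun y : Fin m → Item R E D =>
      Exact y ∧ ∀ i, ends y (i, false) ≠ ends y (i, true)), b.val τ cf y =
      ∑ π ∈ univ.filter (IsPairing (m := m)), b.pairSum τ cf π := by
  unfold pairSum
  rw [← sum_biUnion]
  · refine sum_congr (ext fun y => ?_) fun _ _ => rfl
    simp only [mem_filter, mem_univ, true_and, mem_biUnion]
    refine ⟨fun ⟨h, hoff⟩ => ?_, fun ⟨π, hπ, h, hp⟩ => ⟨h, fun i he => ?_⟩⟩
    · obtain ⟨π, hπ, hp⟩ := exists_pairing h hoff
      exact ⟨π, hπ, h, hp⟩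
    · rcases h.patt_unique hp hπ.1 (u := (i, false)) (v := (i, true)) he.symm with e | e
      · simp at e
      · exact hπ.2.2 i e.symm
  · intro π hπ π' hπ' hne
    simp only [coe_filter, mem_univ, true_and, Set.mem_ofPred_eq] at hπ hπ'
    refine disjoint_left.2 fun y hy hy' => hne (funext fun u => ?_)
    obtain ⟨-, h, hp⟩ := mem_filter.1 hy
    obtain ⟨-, -, hp'⟩ := mem_filter.1 hy'
    rcases h.patt_unique hp hπ.1 (hp' u) with e | e
    · exact absurd e (hπ'.1 u)
    · exact e.symm

end

end Vale.Agent.P095.All.Coin.BankData
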