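import Vale.Agent.P095.All.Coin.Cov

/-!
# P095 coin: products of letters under a positive tracial functional

A product in which a bank occurs once has value zero, and the value does not depend on the order
of the letters when no bank occurs more than twice.
-/

namespace Vale.Agent.P095.All.Coin.BankData

open Vale.Agent.P101.KR Vale.Agent.P095.Amen Finset

noncomputable section

variable {A B E : Type} [CStarAlgebra A] [CStarAlgebra B] {R : ℕ} (b : BankData A B E R)

/-- The product of a list of letters. -/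
def wp (l : List (Fin R × E)) : A := (l.map fun p => b.letter p.1 p.2).prod

/-- Its value. -/
def ev (τ : A →ₗ[ℂ] ℂ) (l : List (Fin R × E)) : ℝ := (τ (b.wp l)).re

/-- How often a bank occurs. -/
def cnt (r : Fin R) (l : List (Fin R × E)) : ℕ := (l.map Prod.fst).count r

theorem cnt_perm {r : Fin R} {l l' : List (Fin R × E)} (h : l.Perm l') : cnt r l = cnt r l' :=
  (h.map _).count_eq r

theorem cnt_append (r : Fin R) (l l' : List (Fin R × E)) : cnt r (l ++ l') = cnt r l + cnt r l' := by
  simp [cnt]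

theorem cnt_cons (r : Fin R) (p : Fin R × E) (l : List (Fin R × E)) :
    cnt r (p :: l) = cnt r l + if p.1 = r then 1 else 0 := by
  simp [cnt, List.count_cons]

theorem ne_of_cnt_eq_zero {r : Fin R} {l : List (Fin R × E)} (h : cnt r l = 0) :
    ∀ p ∈ l, p.1 ≠ r := fun p hp he =>
  (List.count_eq_zero.1 h) (List.mem_map.2 ⟨p, hp, he⟩)

theorem wp_append (l l' : List (Fin R × E)) : b.wp (l ++ l') = b.wp l * b.wp l' := by
  simp [wp]

theorem wp_cons (p : Fin R × E) (l : List (Fin R × E)) :
    b.wp (p :: l) = b.letter p.1 p.2 * b.wp l := by simp [wp]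

theorem norm_wp_le (l : List (Fin R × E)) : ‖b.wp l‖ ≤ 1 := by
  induction l with
  | nil =>
    rcases subsingleton_or_nontrivial A with h | h
    · simp [wp, Subsingleton.elim (1 : A) 0]
    · simp [wp]
  | cons p l ih =>
    rw [wp_cons]
    exact (norm_mul_le _ _).trans (mul_le_one₀
      ((NonUnitalStarAlgHom.norm_apply_le (b.φ p.1) _).trans (b.bound p.2)) (norm_nonneg _) ih)

/-- A product of letters of other banks commutes with a bank. -/
theorem commute_wp {i : Fin R} {l : List (Fin R × E)} (h : ∀ p ∈ l, p.1 ≠ i) (x : B) :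
    Commute (b.φ i x) (b.wp l) := by
  refine Commute.list_prod_right _ _ fun y hy => ?_
  obtain ⟨p, hp, rfl⟩ := List.mem_map.1 hy
  exact b.comm i p.1 (h p hp).symm x _

variable {τ : A →ₗ[ℂ] ℂ}

theorem abs_ev_le (hτ : PosTr τ) (h1 : (τ 1).re ≤ 1) (l : List (Fin R × E)) :
    |b.ev τ l| ≤ 2 := by
  let _ : PartialOrder A := CStarAlgebra.spectralOrder A
  have : StarOrderedRing A := CStarAlgebra.spectralOrderedRing A
  refine (Complex.abs_re_le_norm _).trans ((hτ.norm_le _).trans ?_)
  calc 2 * ‖b.wp l‖ * (τ 1).re ≤ 2 * 1 * 1 :=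
        mul_le_mul (mul_le_mul_of_nonneg_left (b.norm_wp_le l) two_pos.le) h1 hτ.mass_nonneg
          (by norm_num)
    _ = 2 := by norm_num

/-- A bank occurring once kills the value. -/
theorem ev_eq_zero (hτ : PosTr τ) {l : List (Fin R × E)} {r : Fin R} (h : cnt r l = 1) :
    b.ev τ l = 0 := by
  obtain ⟨p, hp, rfl⟩ : ∃ p ∈ l, p.1 = r := List.mem_map.1 (List.count_pos_iff.1 (by
    show 0 < cnt r l
    omega))
  obtain ⟨u, v, rfl⟩ := List.append_of_mem hp
  rw [cnt_append, cnt_cons, if_pos rfl] at h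
  have hz : ∀ x, Commute (b.φ p.1 x) (b.wp v * b.wp u) := fun x =>
    (b.commute_wp (ne_of_cnt_eq_zero (by omega)) x).mul_right
      (b.commute_wp (ne_of_cnt_eq_zero (by omega)) x)
  obtain ⟨c, d, hcd⟩ := b.commutator p.2
  have e : τ (b.wp (u ++ p :: v)) = 0 := by
    rw [wp_append, wp_cons, ← mul_assoc, hτ.comm, letter, hcd, map_sub, map_mul (b.φ p.1),
      map_mul (b.φ p.1), ← mul_assoc (b.wp v), mul_sub, map_sub, sub_eq_zero,
      ← mul_assoc (b.wp v * b.wp u), ← mul_assoc (b.wp v * b.wp u),
      hτ.comm (b.wp v * b.wp u * b.φ p.1 d) (b.φ p.1 c),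
      ← mul_assoc (b.φ p.1 c), (hz c).eq]
  rw [ev, e, Complex.zero_re]

/-- Each bank occurs at most twice. -/
def AtMostTwice (l : List (Fin R × E)) : Prop := ∀ r, cnt r l ≤ 2

theorem ev_perm (hτ : PosTr τ) {l l' : List (Fin R × E)} (h : l.Perm l') (hs : AtMostTwice l) :
    b.ev τ l = b.ev τ l' := by
  suffices ∀ u v, AtMostTwice (u ++ l ++ v) → b.ev τ (u ++ l ++ v) = b.ev τ (u ++ l' ++ v) by
    simpa using this [] [] (by simpa using hs)
  clear hs
  induction h with
  | nil => simp
  | cons x _ ih =>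
    intro u v hu
    have := ih (u ++ [x]) v (by simpa using hu)
    simpa using this
  | swap x y l =>
    intro u v hu
    have key : τ (b.wp u * (b.letter y.1 y.2 * b.letter x.1 x.2) * b.wp (l ++ v)) =
        τ (b.wp u * (b.letter x.1 x.2 * b.letter y.1 y.2) * b.wp (l ++ v)) := by
      by_cases hxy : y.1 = x.1
      · have h2 := hu x.1
        rw [cnt_append, cnt_append, cnt_cons, cnt_cons, if_pos rfl, if_pos hxy] at h2
        have hz : ∀ z, Commute (b.φ x.1 z) (b.wp (l ++ v) * b.wp u) := fun z =>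
          (b.commute_wp (ne_of_cnt_eq_zero (by rw [cnt_append]; omega)) z).mul_right
            (b.commute_wp (ne_of_cnt_eq_zero (by omega)) z)
        rw [hτ.comm, hτ.comm (b.wp u * _), letter, letter, hxy]
        simp only [← mul_assoc]
        rw [hτ.comm (b.wp (l ++ v) * b.wp u * _) (b.φ x.1 (b.ζ x.2)), ← mul_assoc (b.φ x.1 _),
          (hz _).eq]
      · rw [show b.letter y.1 y.2 * b.letter x.1 x.2 = b.letter x.1 x.2 * b.letter y.1 y.2 from
          (b.comm _ _ hxy _ _).eq]
    simp only [ev]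
    refine congrArg Complex.re ?_
    simpa [wp_append, wp_cons, mul_assoc] using key
  | trans h₁ _ ih₁ ih₂ =>
    intro u v hu
    exact (ih₁ u v hu).trans (ih₂ u v fun r =>
      (cnt_perm ((h₁.append_left u).append_right v)).symm.trans_le (hu r))

end

end Vale.Agent.P095.All.Coin.BankData
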